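import Vale.Agent.P022G.Defs
import Vale.Agent.P022G.R.Obj
import Vale.Agent.P022D.L2b.Ps

/-!
# P022G: the objects which belong to a curve
-/

set_option linter.all false

noncomputable section

namespace Vale.Agent.P022G.Tw

open NumberField IsLocalRing MvPowerSeries
open Vale.Agent.P022 Vale.Agent.P022G.R Vale.Agent.P022G.Loc
open Vale.Agent.P027M.S (Inert mx)
open Vale.Agent.P022D.Sel (M2)
open Vale.Agent.P022D.Core (PS Coef)
open Vale.Agent.P022E.Loc (Pl Rt En)
open Vale.Agent.P022E.GW (Ov Gn)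
open _root_.P022G.Sel (tI rd)

variable {O F : Type} [CommRing O] [Field F]

section nat

variable {A B : Type} [CommRing A] [CommRing B] (u : A →+* B)

theorem sv_map {ι : Type} (rc : ι → M2 O) (j : O →+* A) (Z : ι → M2 A) (s : Sy ι) :
    u (sv rc j Z s) = sv rc (u.comp j) (fun i => (Z i).map u) s := by
  rcases s with i | i | ⟨i, k⟩
  · exact map_sub u _ _
  · exact map_sub u _ _
  · exact (map_sub u _ _).trans (congrArg (· - _) (map_mul u _ _))

theorem bv_map {ι : Type} (rc : ι → M2 O) (j : O →+* A) (Z : ι → M2 A) (s : ι ⊕ ι) :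
    u (bv rc j Z s) = bv rc (u.comp j) (fun i => (Z i).map u) s := by
  rcases s with i | i <;> exact map_sub u _ _

theorem fv_map {ι : Type} (rc : ι → M2 O) (j : O →+* A) (Z : ι → M2 A) (s : Fr ι) :
    u (fv rc j Z s) = fv rc (u.comp j) (fun i => (Z i).map u) s := by
  rcases s with i | i | s
  · exact map_sub u _ _
  · exact map_sub u _ _
  · exact bv_map u rc j Z s

theorem e8_map (s b n : A) (Φ T : M2 A) (i : Fin 8) :
    u (e8 s b n Φ T i) = e8 (u s) (u b) (u n) (Φ.map u) (T.map u) i := by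
  fin_cases i <;> simp [e8]

theorem val_map {β C : Type} {τ ι : β → Type} (K : Kx O β τ ι C) (j : O →+* A)
    (w : (Σ b, τ b) → M2 A) (Φ T : C → M2 A) (x : (Σ b, τ b) ⊕ (C × Fin 8)) :
    u (K.val j w Φ T x) = K.val (u.comp j) (fun t => (w t).map u) (fun c => (Φ c).map u)
      (fun c => (T c).map u) x := by
  rcases x with t | x
  · exact map_sub u _ _
  · refine (e8_map u _ _ _ _ _ _).trans ?_
    rw [Matrix.map_mul, Matrix.map_mul, Matrix.map_mul, Matrix.map_mul]
    rfl

variable {S : Dat O F} {L : Pl O} {β : Type} {τ ι' : β → Type} (K : Kx O β τ ι' L.C) {ι : Type}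
  (G : Gs S L K.g ι) (r : ℕ)

theorem v0_map (j : O →+* A) (ρ : GQ → M2 A) (α α' : ℕ → M2 A) (τ' : Fin r → GQ)
    (s : V0 τ L ι S.T r) :
    u (v0 K G r j ρ α α' τ' s) = v0 K G r (u.comp j) (fun g => (ρ g).map u)
      (fun l => (α l).map u) (fun l => (α' l).map u) τ' s := by
  rcases s with x | s | s | p
  · have := val_map u K j (fun t => α' (K.l t) * ρ (K.g t) * α (K.l t))
      (fun γ => α' γ * ρ (L.φ γ) * α γ) (fun γ => α' γ * ρ (L.τ γ) * α γ) x
    simp only [Matrix.map_mul] at this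
    exact this
  · exact sv_map u _ j _ s
  · exact bv_map u _ j _ s
  · show u (α p.1 p.2.1 p.2.2 - (1 : M2 A) p.2.1 p.2.2) =
      u (α p.1 p.2.1 p.2.2) - (1 : M2 B) p.2.1 p.2.2
    rw [map_sub, ← P022D.R.map_one' u]
    rfl

theorem v0_congr (j : O →+* A) (ρ : GQ → M2 A) (α α' : ℕ → M2 A) {τ' τ'' : Fin r → GQ}
    (h : ∀ i, ρ (τ' i) = ρ (τ'' i)) : v0 K G r j ρ α α' τ' = v0 K G r j ρ α α' τ'' := by
  have : (fun i => ρ (Sum.elim G.γ τ' i)) = fun i => ρ (Sum.elim G.γ τ'' i) := by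
    funext i
    rcases i with i | i
    · rfl
    · exact h i
  unfold v0
  rw [this]

theorem sv_res {κ : Type} (rc : κ → M2 O) (j : O →+* A) (π : A →+* F) (Z : κ → M2 A)
    (h : ∀ i a b, π (Z i a b) = π (j (rc i a b))) (s : Sy κ) : π (sv rc j Z s) = 0 := by
  rcases s with i | i | ⟨i, k⟩
  · exact (map_sub π _ _).trans (sub_eq_zero.2 (h i 0 0))
  · exact (map_sub π _ _).trans (sub_eq_zero.2 (h i 1 1))
  · refine (map_sub π _ _).trans (sub_eq_zero.2 ?_)
    show π (Z i 0 1 * Z k 1 0) = π (j (rc i 0 1 * rc k 1 0))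
    rw [map_mul, map_mul, map_mul, h, h]

theorem bv_res {κ : Type} (rc : κ → M2 O) (j : O →+* A) (π : A →+* F) (Z : κ → M2 A)
    (h : ∀ i a b, π (Z i a b) = π (j (rc i a b))) (s : κ ⊕ κ) : π (bv rc j Z s) = 0 := by
  rcases s with i | i
  · exact (map_sub π _ _).trans (sub_eq_zero.2 (h i 0 1))
  · exact (map_sub π _ _).trans (sub_eq_zero.2 (h i 1 0))

theorem ent_res (hl : ∀ g, (L.r g).map S.red = mx S.rb g) (X : Obj S A) (g : GQ) (a b : Fin 2) :
    X.π (X.ρ g a b) = X.π (X.ι (L.r g a b)) := by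
  rw [X.alg]
  exact (congrFun (congrFun (X.res g) a) b).trans (congrFun (congrFun (hl g) a) b).symm

theorem v0_res (hl : ∀ g, (L.r g).map S.red = mx S.rb g) (X : Obj S A)
    (hc : ∀ i, X.π (K.crd L S A X i) = 0) (τ' : Fin r → GQ) (hτ : ∀ i, mx S.rb (τ' i) = 1)
    (s : V0 τ L ι S.T r) : X.π (v0 K G r X.ι X.ρ X.α X.β τ' s) = 0 := by
  have h : ∀ i a b, X.π (X.ρ (Sum.elim G.γ τ' i) a b) = X.π (X.ι (G.rcr r i a b)) := by
    rintro (i | i) a b
    · exact ent_res hl X _ a b
    · rw [X.alg]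
      refine (congrFun (congrFun (X.res (τ' i)) a) b).trans ?_
      rw [hτ, ← P022D.R.map_one' S.red]
      rfl
  rcases s with x | s | s | p
  · exact hc x
  · exact sv_res _ _ _ _ h s
  · exact bv_res _ _ _ _ h s
  · show X.π (X.α p.1 p.2.1 p.2.2 - (1 : M2 A) p.2.1 p.2.2) = 0
    rw [map_sub, sub_eq_zero]
    exact (congrFun (congrFun (X.one p.1) _) _).trans
      (congrFun (congrFun (P022D.R.map_one' X.π) _) _).symm

end nat

section sub

variable {V : Type} [CommRing V] (t : V) (j : O →+* V) (N : ℕ)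

/-- the ring `j O + (t)` modulo `t ^ (N + 1)` -/
structure Sb (red : O →+* F) {A : Type} [CommRing A] (u : A →+* V ⧸ tI t (N + 1)) (ι : O →+* A)
    (π : A →+* F) : Prop where
  inj : Function.Injective u
  cst : ∀ o, u (ι o) = Ideal.Quotient.mk _ (j o)
  ran : ∀ a, ∃ o v, u a = Ideal.Quotient.mk _ (j o + t * v)
  sur : ∀ o v, ∃ a, u a = Ideal.Quotient.mk _ (j o + t * v)
  res : ∀ a o v, u a = Ideal.Quotient.mk _ (j o + t * v) → π a = red o
  fin : Finite A
  loc : ∀ a, π a ≠ 0 → IsUnit a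

theorem ex_sb [IsLocalRing O] [IsLocalRing V] (red : O →+* F)
    (hk : ∀ c, red c = 0 ↔ c ∈ maximalIdeal O) (ht : ¬ IsUnit t)
    (hf : Finite (V ⧸ tI t (N + 1))) :
    ∃ (A : Type) (_ : CommRing A) (u : A →+* V ⧸ tI t (N + 1)) (ι : O →+* A) (π : A →+* F),
      Sb t j N red u ι π := by
  let mk := Ideal.Quotient.mk (tI t (N + 1))
  let A : Subring (V ⧸ tI t (N + 1)) :=
    { carrier := {a | ∃ o v, a = mk (j o + t * v)}
      mul_mem' := by
        rintro _ _ ⟨o, v, rfl⟩ ⟨o', v', rfl⟩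
        exact ⟨o * o', v * j o' + j o * v' + t * v * v', by rw [← map_mul, map_mul j]; congr 1; ring⟩
      one_mem' := ⟨1, 0, by rw [map_one j, mul_zero, add_zero, map_one]⟩
      add_mem' := by
        rintro _ _ ⟨o, v, rfl⟩ ⟨o', v', rfl⟩
        exact ⟨o + o', v + v', by rw [← map_add, map_add j]; congr 1; ring⟩
      zero_mem' := ⟨0, 0, by rw [map_zero j, mul_zero, add_zero, map_zero]⟩
      neg_mem' := by
        rintro _ ⟨o, v, rfl⟩
        exact ⟨-o, -v, by rw [← map_neg, map_neg j]; congr 1; ring⟩ }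
  have hu : ∀ o, red o ≠ 0 → IsUnit (j o) := fun o ho =>
    (notMem_maximalIdeal.1 fun h => ho ((hk o).2 h)).map j
  have wd : ∀ o v o' v', mk (j o + t * v) = mk (j o' + t * v') → red o = red o' :=
    fun o v o' v' h => by
      obtain ⟨w, hw⟩ := Ideal.mem_span_singleton.1 (Ideal.Quotient.eq.1 h)
      by_contra hn
      have h1 := hu (o - o') (by rw [map_sub]; exact sub_ne_zero.2 hn)
      have h2 : j (o - o') = t * (t ^ N * w - v + v') := by
        rw [map_sub]; linear_combination hw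
      rw [h2] at h1
      exact ht (isUnit_of_mul_isUnit_left h1)
  have ex : ∀ a : A, ∃ o v, a.1 = mk (j o + t * v) := fun a => a.2
  choose o v hov using ex
  have key : ∀ (a : A) o' v', a.1 = mk (j o' + t * v') → red (o a) = red o' :=
    fun a o' v' h => wd _ _ _ _ ((hov a).symm.trans h)
  let π : A →+* F :=
    { toFun := fun a => red (o a)
      map_one' := (key 1 1 0 (by rw [map_one j, mul_zero, add_zero, map_one]; rfl)).trans
        (map_one red)
      map_zero' := (key 0 0 0 (by rw [map_zero j, mul_zero, add_zero, map_zero]; rfl)).trans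
        (map_zero red)
      map_mul' := fun a b => (key (a * b) (o a * o b) (v a * j (o b) + j (o a) * v b + t * v a * v b)
        (by rw [Subring.coe_mul, hov a, hov b, ← map_mul, map_mul j]; congr 1; ring)).trans
        (map_mul red _ _)
      map_add' := fun a b => (key (a + b) (o a + o b) (v a + v b)
        (by rw [Subring.coe_add, hov a, hov b, ← map_add, map_add j]; congr 1; ring)).trans
        (map_add red _ _) }
  refine ⟨A, inferInstance, A.subtype,
    (mk.comp j).codRestrict A fun c => ⟨c, 0, by rw [mul_zero, add_zero]; rfl⟩, π,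
    Subtype.val_injective, fun _ => rfl, fun a => a.2, fun o v => ⟨⟨_, o, v, rfl⟩, rfl⟩, key,
    inferInstance, fun a ha => ?_⟩
  have h1 : IsUnit (j (o a) + t * v a) := by
    by_contra hn
    have h2 := (maximalIdeal V).sub_mem ((mem_maximalIdeal _).2 hn)
      ((maximalIdeal V).mul_mem_right (v a) ((mem_maximalIdeal t).2 ht))
    rw [add_sub_cancel_right] at h2
    exact (mem_maximalIdeal _).1 h2 (hu _ ha)
  have h3 : IsUnit a.1 := hov a ▸ h1.map mk
  refine isUnit_iff_mem_nonZeroDivisors_of_finite.2 (mem_nonZeroDivisors_iff_right.2 ?_)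
  intro x hx
  exact Subtype.ext (h3.mul_left_eq_zero.1 (congrArg Subtype.val hx))

variable {t j N}

/-- corestriction of an evaluation -/
theorem Sb.cor [IsLocalRing O] {red : O →+* F} {A : Type} [CommRing A]
    {u : A →+* V ⧸ tI t (N + 1)} {ι : O →+* A} {π : A →+* F} (H : Sb t j N red u ι π)
    (hj : ∀ c, red c = 0 → j c = 0) {σ : Type} [Fintype σ] (v : σ → A) (hv : ∀ s, π (v s) = 0)
    (θ : PS O σ →+* V) (hc : ∀ o, θ (C o) = j o)
    (hx : ∀ s, Ideal.Quotient.mk _ (θ (X s)) = u (v s)) :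
    ∃ ψ : PS O σ →+* A, Hm ι v ψ ∧ ∀ f, u (ψ f) = Ideal.Quotient.mk _ (θ f) := by
  have h1 : ∀ s, ∃ w, u (v s) = Ideal.Quotient.mk _ (t * w) := fun s => by
    obtain ⟨o, w, h⟩ := H.ran (v s)
    have := H.res _ _ _ h
    rw [hv] at this
    rw [hj o this.symm, zero_add] at h
    exact ⟨w, h⟩
  choose w hw using h1
  have h2 : ∀ f, ∃ a, u a = Ideal.Quotient.mk _ (θ f) := fun f => by
    obtain ⟨g, hg, -⟩ := P022D.L2b.exists_decompV (f - C (constantCoeff f))
      (by rw [map_sub, constantCoeff_C, sub_self])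
    obtain ⟨a, ha⟩ := H.sur (constantCoeff f) (∑ s, w s * θ (g s))
    refine ⟨a, ha.trans ?_⟩
    rw [sub_eq_iff_eq_add'] at hg
    conv_rhs => rw [hg]
    rw [map_add θ, hc, map_sum θ, map_add, map_add, Finset.mul_sum, map_sum, map_sum]
    refine congrArg _ (Finset.sum_congr rfl fun s _ => ?_)
    rw [map_mul θ, map_mul _ (θ _), hx, hw, ← map_mul, mul_assoc]
  choose p hp using h2
  refine ⟨{ toFun := p
            map_one' := H.inj (by rw [hp, map_one, map_one, map_one])
            map_zero' := H.inj (by rw [hp, map_zero, map_zero, map_zero])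
            map_mul' := fun a b => H.inj (by rw [map_mul, hp, hp, hp, map_mul, map_mul])
            map_add' := fun a b => H.inj (by rw [map_add, hp, hp, hp, map_add, map_add]) },
    ⟨fun o => H.inj ?_, fun s => H.inj ?_⟩, hp⟩
  · exact (hp _).trans (by rw [hc, H.cst])
  · exact (hp _).trans (hx s)

end sub

section crv

variable {S : Dat O F} {L : Pl O} {κ : Type} {gk : κ → GQ} {ι : Type} {G : Gs S L gk ι}
  {V : Type} [CommRing V] {t : V} {j : O →+* V} {ρ : GQ →* GL (Fin 2) V}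
  {θ : PS O (Sy ι) →+* V}

theorem j_zero [IsDomain O] [IsDiscreteValuationRing O] [Coef O] [IsDomain V] [CharP V 2]
    (j : O →+* V) {c : O} (hc : c ∈ maximalIdeal O) : j c = 0 := by
  obtain ⟨ϖ, hϖ⟩ := IsDiscreteValuationRing.exists_irreducible O
  obtain ⟨n, e, he⟩ := IsDiscreteValuationRing.eq_unit_mul_pow_irreducible (Coef.ne (O := O)) hϖ
  have h1 : j e * j ϖ ^ n = 0 := by
    rw [← map_pow, ← map_mul, ← he, map_ofNat]; exact CharTwo.two_eq_zero
  have h2 : j ϖ = 0 :=
    (pow_eq_zero_iff' .. |>.1 ((e.isUnit.map j).mul_right_eq_zero.1 h1)).1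
  rw [hϖ.maximalIdeal_eq, Ideal.mem_span_singleton] at hc
  obtain ⟨d, rfl⟩ := hc
  rw [map_mul, h2, zero_mul]

theorem krull [IsDomain V] [IsNoetherianRing V] (ht : ¬ IsUnit t) {x : V}
    (h : ∀ N, Ideal.Quotient.mk (tI t (N + 1)) x = 0) : x = 0 := by
  have h1 := Ideal.iInf_pow_eq_bot_of_isDomain (Ideal.span {t})
    (fun e => ht (Ideal.span_singleton_eq_top.1 e))
  rw [← Ideal.mem_bot, ← h1, Ideal.mem_iInf]
  intro n
  have := Ideal.Quotient.eq_zero_iff_mem.1 (h n)
  rw [tI, ← Ideal.span_singleton_pow] at this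
  exact Ideal.pow_le_pow_right (Nat.le_succ n) this

theorem fin_tI [IsDomain V] [IsDiscreteValuationRing V] [Finite (ResidueField V)]
    (ht : Irreducible t) (N : ℕ) : Finite (V ⧸ tI t N) := by
  rw [tI, ← Ideal.span_singleton_pow, ← ht.maximalIdeal_eq]
  haveI : Finite (V ⧸ maximalIdeal V) := inferInstanceAs (Finite (ResidueField V))
  exact Ideal.finite_quotient_pow (IsNoetherian.noetherian _) N

theorem rd_val (J : Ideal V) (g : GQ) :
    ((rd J ρ g : GL (Fin 2) (V ⧸ J)) : M2 (V ⧸ J)) = (ρ g : M2 V).map (Ideal.Quotient.mk J) := rfl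

/-- a curve is unramified outside `T` -/
theorem crv_unr [IsDomain V] [IsNoetherianRing V] (ht : ¬ IsUnit t) (hc : G.Crv t j ρ θ) {l : ℕ}
    (hl : l ∉ S.T) {P : Ideal (𝓞 Qb)} (hP : Ov l P) {g : GQ} (hg : Inert P g) : ρ g = 1 := by
  refine Units.ext (Matrix.ext fun a b => sub_eq_zero.1 (krull ht fun N => ?_))
  have := congrArg Units.val ((hc.lv (N + 1)).unr l hl P hP g hg)
  rw [rd_val, Units.val_one, ← P022D.R.map_one' (Ideal.Quotient.mk (tI t (N + 1)))] at this
  rw [map_sub, sub_eq_zero]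
  exact congrFun (congrFun this a) b

/-- **the object of a curve modulo `t ^ (N + 1)`** -/
theorem crv_obj [IsLocalRing O] [CharP V 2] (hL : OkG L S) (hj : ∀ c, S.red c = 0 → j c = 0)
    (hc : G.Crv t j ρ θ) {N : ℕ} {A : Type} [CommRing A] {u : A →+* V ⧸ tI t (N + 1)}
    {ι0 : O →+* A} {π : A →+* F} (H : Sb t j N S.red u ι0 π) :
    ∃ X : Obj S A, X.ι = ι0 ∧ X.π = π ∧ (∀ l, X.α l = 1) ∧ (∀ l, X.β l = 1) ∧
      (∀ g, (X.ρ g).map u = (ρ g : M2 V).map (Ideal.Quotient.mk (tI t (N + 1)))) ∧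
      Ty (ClG L S) ∅ A X := by
  let mk := Ideal.Quotient.mk (tI t (N + 1))
  have h1 : ∀ g a b, ∃ x : A, u x = mk ((ρ g : M2 V) a b) ∧ π x = mx S.rb g a b := fun g a b => by
    obtain ⟨v, hv⟩ := hc.res g a b
    obtain ⟨x, hx⟩ := H.sur (L.r g a b) v
    refine ⟨x, by rw [hx, ← hv, add_sub_cancel], (H.res _ _ _ hx).trans ?_⟩
    exact congrFun (congrFun (hL.lift g) a) b
  choose m hm hm' using h1
  have hm1 : ∀ g, (Matrix.of (m g) : M2 A).map u = (ρ g : M2 V).map mk :=
    fun g => Matrix.ext fun a b => hm g a b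
  have mi : ∀ {M M' : M2 A}, M.map u = M'.map u → M = M' := fun h =>
    Matrix.map_injective H.inj h
  let σ : GQ →* M2 A :=
    { toFun := fun g => Matrix.of (m g)
      map_one' := mi (by
        rw [hm1, map_one, Units.val_one, P022D.R.map_one', P022D.R.map_one'])
      map_mul' := fun g h => mi (by
        rw [Matrix.map_mul, hm1, hm1, hm1, map_mul, Units.val_mul, Matrix.map_mul]) }
  have hσ : ∀ g, (σ g).map u = (ρ g : M2 V).map mk := hm1
  have one : ∀ g, rd (tI t (N + 1)) ρ g = 1 → σ g = 1 := fun g h => mi (by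
    rw [hσ, P022D.R.map_one']
    exact congrArg Units.val h)
  have one' : ∀ g, σ g = 1 → rd (tI t (N + 1)) ρ g = 1 := fun g h => Units.ext (by
    rw [rd_val, ← hσ, h, P022D.R.map_one']
    rfl)
  have alg : ∀ c, π (ι0 c) = S.red c := fun c =>
    H.res _ c 0 (by rw [H.cst, mul_zero, add_zero])
  let X : Obj S A :=
    { ι := ι0
      π := π
      ρ := σ
      α := fun _ => 1
      β := fun _ => 1
      fin := H.fin
      loc := H.loc
      alg := alg
      res := fun g => Matrix.ext fun a b => hm' g a b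
      opn := by
        have : {g | σ g = 1} = {g | rd (tI t (N + 1)) ρ g = 1} :=
          Set.ext fun g => ⟨one' g, one g⟩
        rw [this]
        exact (hc.lv (N + 1)).opn
      dg := ⟨H.inj (by rw [map_zero]; exact (hm _ _ _).trans (by rw [hc.dg.1, map_zero])),
        H.inj (by rw [map_zero]; exact (hm _ _ _).trans (by rw [hc.dg.2, map_zero]))⟩
      inv := fun _ => mul_one _
      one := fun _ => P022D.R.map_one' π
      off := fun _ _ => rfl
      fr := ⟨rfl, rfl⟩ }
  have utr : ∀ g, u (σ g).trace = mk (ρ g : M2 V).trace := fun g => by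
    rw [Matrix.trace_fin_two, Matrix.trace_fin_two, map_add, map_add]
    exact congrArg₂ _ (hm g 0 0) (hm g 1 1)
  have udet : ∀ g, (σ g).det = 1 := fun g => H.inj (by
    rw [RingHom.map_det, RingHom.mapMatrix_apply, hσ, ← RingHom.mapMatrix_apply,
      ← RingHom.map_det, hc.det, map_one, map_one])
  have two : (2 : A) = 0 := H.inj (by
    rw [map_ofNat, map_zero, ← map_ofNat mk, show (2 : V) = 0 from CharTwo.two_eq_zero, map_zero])
  have ldet : ∀ g, ι0 (L.r g).det = 1 := fun g => H.inj (by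
    have : S.red ((L.r g).det - 1) = 0 := by
      rw [map_sub, RingHom.map_det, RingHom.mapMatrix_apply, hL.lift, hL.det, map_one, sub_self]
    have := hj _ this
    rw [map_sub, map_one, sub_eq_zero] at this
    rw [H.cst, this, map_one, map_one])
  refine ⟨X, rfl, rfl, fun _ => rfl, fun _ => rfl, hσ, ⟨fun g _ => (udet g).trans (ldet g).symm,
    (udet _).trans (by linear_combination two), fun l _ => (udet _).trans (ldet _).symm,
    fun l hl => ?_⟩, fun l hl h1 _ P hP h2 g hg =>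
      one g ((hc.lv (N + 1)).unr l h1 P ⟨hl, hP, h2⟩ g hg)⟩
  obtain ⟨y, y1, ⟨v, hv⟩, y3⟩ := hc.ty l hl
  obtain ⟨x, hx⟩ := H.sur (L.r (L.g0 l) 1 1) v
  have hx' : u x = mk y := by rw [hx, ← hv, add_sub_cancel]
  refine ⟨x, H.inj ?_, (H.res _ _ _ hx).trans (congrFun (congrFun (hL.lift _) 1) 1), H.inj ?_⟩
  · show u (x ^ 2 - (σ (L.g0 l)).trace * x + (σ (L.g0 l)).det) = u 0
    rw [udet, map_zero, map_add, map_sub, map_mul, map_pow, utr, hx', map_one]
    have := congrArg mk y1
    rwa [map_zero, map_add, map_sub, map_mul, map_pow, map_one] at this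
  · show u ((σ (L.τ l * L.g0 l)).trace - x * (σ (L.τ l)).trace) =
      u (ι0 (L.a l) * ((σ (L.g0 l)).trace - 2 * x))
    rw [two, zero_mul, sub_zero, map_sub, map_mul u x, map_mul u, utr, utr, utr, hx', H.cst]
    have := congrArg mk y3
    rwa [map_sub, map_mul mk, map_mul mk] at this

end crv

end Vale.Agent.P022G.Tw
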