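import Vale.Agent.P022G.Defs
import Vale.Agent.P022D.R.Obj
import Vale.Agent.P022D.L2b.Ps

/-!
# P022G: the universal property of the relations of level `q`
-/

set_option linter.all false

noncomputable section

namespace Vale.Agent.P022G.Tw.H44

open NumberField IsLocalRing MvPowerSeries
open Vale.Agent.P022 Vale.Agent.P022G.R Vale.Agent.P022G.Loc
open Vale.Agent.P027M.S (Inert mx)
open Vale.Agent.P022D.Sel (M2)
open Vale.Agent.P022D.Core (PS)
open Vale.Agent.P022E.Loc (Pl)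
open Vale.Agent.P022D.R (map_one' ker_nil opn_of_le ker_set mat_inj)

variable {O F : Type} [CommRing O] [Field F] {S : Dat O F}
variable {A B B' : Type} [CommRing A] [CommRing B] [CommRing B']

theorem inv' (X : Obj S A) (l : ℕ) : X.β l * X.α l = 1 := mul_eq_one_comm.1 (X.inv l)

theorem nil (X : Obj S A) : ∃ n, RingHom.ker X.π ^ n = ⊥ :=
  have := X.fin
  ker_nil X.π X.loc

theorem homβ {X : Obj S A} {Y : Obj S B} {u : A →+* B} (h : Hom X Y u) (l : ℕ) :
    (X.β l).map u = Y.β l := by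
  have h1 : Y.α l * (X.β l).map u = 1 := by rw [← h.α, ← Matrix.map_mul, X.inv, map_one']
  rw [← one_mul ((X.β l).map u), ← inv' Y l, mul_assoc, h1, mul_one]

/-- the image of an object -/
def omap (X : Obj S A) (u : A →+* B) (p : B →+* F) (hf : Finite B)
    (hl : ∀ b, p b ≠ 0 → IsUnit b) (hp : ∀ a, p (u a) = X.π a) : Obj S B where
  ι := u.comp X.ι
  π := p
  ρ := u.mapMatrix.toMonoidHom.comp X.ρ
  α l := (X.α l).map u
  β l := (X.β l).map u
  fin := hf
  loc := hl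
  alg c := (hp _).trans (X.alg c)
  res g := by
    rw [← X.res g]
    ext i j
    exact hp _
  opn := opn_of_le X.ρ _ X.opn fun g hg => (congrArg (fun M : M2 A => M.map u) hg).trans
    (map_one' u)
  dg := ⟨(congrArg u X.dg.1).trans u.map_zero, (congrArg u X.dg.2).trans u.map_zero⟩
  inv l := by rw [← Matrix.map_mul, X.inv, map_one']
  one l := by
    rw [← X.one l]
    ext i j
    exact hp _
  off l hl := by rw [X.off l hl, map_one']
  fr := ⟨(congrArg u X.fr.1).trans u.map_one, (congrArg u X.fr.2).trans u.map_one⟩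

theorem hom_map (X : Obj S A) (u : A →+* B) (p : B →+* F) (hf : Finite B)
    (hl : ∀ b, p b ≠ 0 → IsUnit b) (hp : ∀ a, p (u a) = X.π a) :
    Hom X (omap X u p hf hl hp) u := ⟨fun _ => rfl, fun _ => rfl, fun _ => rfl⟩

/-- the object over a ring which embeds in a product -/
theorem pull (Y : Obj S B) (Y' : Obj S B') (u : A →+* B) (u' : A →+* B')
    (h : ∀ a, u a = 0 → u' a = 0 → a = 0) (hp : ∀ a, Y.π (u a) = Y'.π (u' a)) (ι : O →+* A)
    (m : GQ → M2 A) (a b : ℕ → M2 A) (hι : ∀ c, u (ι c) = Y.ι c) (hι' : ∀ c, u' (ι c) = Y'.ι c)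
    (hm : ∀ v, (m v).map u = Y.ρ v) (hm' : ∀ v, (m v).map u' = Y'.ρ v)
    (ha : ∀ v, (a v).map u = Y.α v) (ha' : ∀ v, (a v).map u' = Y'.α v)
    (hb : ∀ v, (b v).map u = Y.β v) (hb' : ∀ v, (b v).map u' = Y'.β v) :
    ∃ Z : Obj S A, Z.ι = ι ∧ Hom Z Y u ∧ Hom Z Y' u' := by
  have hf : Finite A := by
    have := Y.fin
    have := Y'.fin
    refine Finite.of_injective (u.prod u') ((injective_iff_map_eq_zero _).2 fun a ha => ?_)
    exact h a (congrArg Prod.fst ha) (congrArg Prod.snd ha)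
  have en : ∀ (M : M2 A) i j (c : A), M.map u i j = u c → M.map u' i j = u' c → M i j = c :=
    fun M i j c e e' => sub_eq_zero.1 (h _
      (by rw [map_sub, ← e, Matrix.map_apply, sub_self])
      (by rw [map_sub, ← e', Matrix.map_apply, sub_self]))
  refine ⟨{
    ι := ι
    π := Y.π.comp u
    ρ :=
      { toFun := m
        map_one' := mat_inj h ((hm _).trans (Y.ρ.map_one.trans (map_one' u).symm))
          ((hm' _).trans (Y'.ρ.map_one.trans (map_one' u').symm))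
        map_mul' := fun g k => mat_inj h
          (by rw [Matrix.map_mul, hm, hm, hm]; exact Y.ρ.map_mul g k)
          (by rw [Matrix.map_mul, hm', hm', hm']; exact Y'.ρ.map_mul g k) }
    α := a
    β := b
    fin := hf
    loc := fun a ha => by
      have h1 := Y.loc _ ha
      have h2 := Y'.loc (u' a) (hp a ▸ ha)
      refine isUnit_iff_mem_nonZeroDivisors_of_finite.2 (mem_nonZeroDivisors_iff_right.2 ?_)
      intro x hx
      refine h x (h1.mul_left_eq_zero.1 ?_) (h2.mul_left_eq_zero.1 ?_)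
      · rw [← map_mul, hx, map_zero]
      · rw [← map_mul, hx, map_zero]
    alg := fun c => (congrArg Y.π (hι c)).trans (Y.alg c)
    res := fun g => by
      rw [← Y.res g]
      ext i j
      exact congrArg Y.π (congrFun (congrFun (hm g) i) j)
    opn := by
      have e : {g : GQ | m g = 1} = {g | Y.ρ g = 1} ∩ {g | Y'.ρ g = 1} := by
        ext g
        constructor
        · intro hg
          exact ⟨(hm g).symm.trans ((congrArg (fun M : M2 A => M.map u) hg).trans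
            (map_one' u)), (hm' g).symm.trans
            ((congrArg (fun M : M2 A => M.map u') hg).trans (map_one' u'))⟩
        · rintro ⟨a, b⟩
          exact mat_inj h ((hm _).trans (a.trans (map_one' u).symm))
            ((hm' _).trans (b.trans (map_one' u').symm))
      exact e ▸ Y.opn.inter Y'.opn
    dg := ⟨en (m S.g0) _ _ _ (by rw [hm, Y.dg.1, map_zero]) (by rw [hm', Y'.dg.1, map_zero]),
      en (m S.g0) _ _ _ (by rw [hm, Y.dg.2, map_zero]) (by rw [hm', Y'.dg.2, map_zero])⟩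
    inv := fun l => mat_inj h (by rw [Matrix.map_mul, ha, hb, map_one']; exact Y.inv l)
      (by rw [Matrix.map_mul, ha', hb', map_one']; exact Y'.inv l)
    one := fun l => by
      rw [← Y.one l]
      ext i j
      exact congrArg Y.π (congrFun (congrFun (ha l) i) j)
    off := fun l hl => mat_inj h ((ha _).trans ((Y.off l hl).trans (map_one' u).symm))
      ((ha' _).trans ((Y'.off l hl).trans (map_one' u').symm))
    fr := ⟨en _ _ _ _ (by rw [ha, Y.fr.1, map_one]) (by rw [ha', Y'.fr.1, map_one]),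
      en _ _ _ _ (by rw [ha, Y.fr.2, map_one]) (by rw [ha', Y'.fr.2, map_one])⟩ },
    rfl, ⟨hι, hm, ha⟩, ⟨hι', hm', ha'⟩⟩

theorem closed_ty {C : Cl S} (h : Closed C) (Q : Finset ℕ) : Closed (Ty C Q) where
  push A B _ _ X Y u k hX := ⟨h.push A B X Y u k hX.1, fun l a b c P d e g f => by
    rw [← k.ρ, hX.2 l a b c P d e g f, map_one']⟩
  pull A B B' _ _ _ X Y Y' u u' k k' i hY hY' := ⟨h.pull A B B' X Y Y' u u' k k' i hY.1 hY'.1,
    fun l a b c P d e g f => mat_inj i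
      (by rw [k.ρ, hY.2 l a b c P d e g f, map_one'])
      (by rw [k'.ρ, hY'.2 l a b c P d e g f, map_one'])⟩

/-- the kernel of the reduction consists of elements of two power order -/
theorem two_pow [CharP F 2] (π : A →+* F) {M : M2 A} (h : M.map π = 1) (k : ℕ) :
    ∀ i j, (M ^ 2 ^ k - 1 : M2 A) i j ∈ RingHom.ker π ^ (k + 1) := by
  have h0 : ∀ n : ℕ, (M ^ n).map π = 1 := fun n => by
    rw [← RingHom.mapMatrix_apply, map_pow, RingHom.mapMatrix_apply, h, one_pow]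
  induction k with
  | zero =>
    intro i j
    rw [zero_add, pow_one, RingHom.mem_ker, ← Matrix.map_apply (f := π),
      ← RingHom.mapMatrix_apply, map_sub, map_one, RingHom.mapMatrix_apply, h0, sub_self]
    rfl
  | succ k ih =>
    intro i j
    have e : M ^ 2 ^ (k + 1) - 1 = (M ^ 2 ^ k - 1) * (M ^ 2 ^ k + 1) := by
      rw [pow_succ, pow_mul, sq]; noncomm_ring
    rw [e, Matrix.mul_apply, pow_succ]
    refine Ideal.sum_mem _ fun l _ => Ideal.mul_mem_mul (ih i l) ?_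
    rw [RingHom.mem_ker, ← Matrix.map_apply (f := π), ← RingHom.mapMatrix_apply, map_add, map_one,
      RingHom.mapMatrix_apply, h0, Matrix.add_apply]
    exact CharTwo.add_self_eq_zero _

theorem two_obj [CharP F 2] (X : Obj S A) {g : GQ} (hg : S.rb g = 1) :
    ∃ n : ℕ, ∀ k, n ≤ k → X.ρ g ^ 2 ^ k = 1 := by
  obtain ⟨n, hn⟩ := nil X
  refine ⟨n, fun k hk => sub_eq_zero.1 (Matrix.ext fun i j => ?_)⟩
  have := Ideal.pow_le_pow_right (show n ≤ k + 1 by omega)
    (two_pow X.π (M := X.ρ g) (by rw [X.res, mx, hg, Units.val_one]) k i j)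
  rwa [hn, Ideal.mem_bot] at this

/-- a map to the residue field is the evaluation at the origin -/
theorem res_eq {σ : Type} [IsLocalRing O] (hk : ∀ c, S.red c = 0 ↔ c ∈ maximalIdeal O)
    (φ : PS O σ →+* F) (h : ∀ c, φ (C c) = S.red c) (f : PS O σ) :
    φ f = S.red (constantCoeff f) := by
  obtain ⟨c, hc⟩ := S.surj (φ f)
  by_contra hn
  have h1 : IsUnit (f - C c) := by
    rw [MvPowerSeries.isUnit_iff_constantCoeff, map_sub, constantCoeff_C, ← notMem_maximalIdeal,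
      ← hk, map_sub, hc, sub_eq_zero]
    exact fun e => hn e.symm
  have := (h1.map φ).ne_zero
  rw [map_sub, h, hc, sub_self] at this
  exact this rfl

variable {L : Pl O} {β : Type} {τ ι' : β → Type} (K : Kx O β τ ι' L.C) {ι : Type}
  (G : Gs S L K.g ι) (r : ℕ)

theorem hm_ZS {j : O →+* B} {ρ : GQ → M2 B} {α α' : ℕ → M2 B} {τ' : Fin r → GQ}
    {ψ : PS O (V0 τ L ι S.T r) →+* B} (h : Hm j (v0 K G r j ρ α α' τ') ψ) (i : ι ⊕ Fin r) :
    (ZS K G r i).map ψ = ρ (Sum.elim G.γ τ' i) := by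
  ext a b
  fin_cases a <;> fin_cases b
  · show ψ (C _ + X _) = _
    rw [map_add, h.c, h.x]
    exact add_sub_cancel _ _
  · show ψ (C _ + X _) = _
    rw [map_add, h.c, h.x]
    exact add_sub_cancel _ _
  · show ψ (C _ + X _) = _
    rw [map_add, h.c, h.x]
    exact add_sub_cancel _ _
  · show ψ (C _ + X _) = _
    rw [map_add, h.c, h.x]
    exact add_sub_cancel _ _

theorem hm_αS {j : O →+* B} {ρ : GQ → M2 B} {α α' : ℕ → M2 B} {τ' : Fin r → GQ}
    {ψ : PS O (V0 τ L ι S.T r) →+* B} (h : Hm j (v0 K G r j ρ α α' τ') ψ) {l : ℕ} (hl : l ∈ S.T) :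
    (αS τ L ι S.T r l).map ψ = α l := by
  rw [αS, dif_pos hl, ← RingHom.mapMatrix_apply, map_add, map_one, ← add_sub_cancel 1 (α l),
    add_right_inj]
  ext a b
  exact h.x _

theorem v0_map (u : A →+* B) (j : O →+* A) (ρ : GQ → M2 A) (α α' : ℕ → M2 A) (τ' : Fin r → GQ)
    (s : V0 τ L ι S.T r) : u (v0 K G r j ρ α α' τ' s) = v0 K G r (u.comp j)
      (fun g => (ρ g).map u) (fun l => (α l).map u) (fun l => (α' l).map u) τ' s := by
  have mm : ∀ M N : M2 A, M.map u * N.map u = (M * N).map u := fun M N => Matrix.map_mul.symm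
  have mc : ∀ M : M2 O, M.map (u.comp j) = (M.map j).map u := fun M => rfl
  rcases s with (t | ⟨γ, k⟩) | ((i | i | ⟨i, k⟩) | ((i | i) | ⟨l, a, b⟩))
  · simp only [v0, Kx.val, Sum.elim_inl, mm, map_sub, Matrix.map_apply, RingHom.comp_apply]
  · simp only [v0, Kx.val, Sum.elim_inl, Sum.elim_inr, mm, mc]
    fin_cases k <;> simp [e8]
  · simp [v0, sv, gv]
  · simp [v0, sv, gv]
  · simp [v0, sv, gv]
  · simp [v0, bv]
  · simp [v0, bv]
  · simp only [v0, Sum.elim_inr, Matrix.sub_apply, map_sub, Matrix.map_apply, Matrix.one_apply]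
    split_ifs <;> simp

theorem v0_hom {X : Obj S A} {Y : Obj S B} {u : A →+* B} (h : Hom X Y u) (τ' : Fin r → GQ)
    (s : V0 τ L ι S.T r) :
    u (v0 K G r X.ι X.ρ X.α X.β τ' s) = v0 K G r Y.ι Y.ρ Y.α Y.β τ' s := by
  rw [v0_map, show u.comp X.ι = Y.ι from RingHom.ext h.ι,
    show (fun g => (X.ρ g).map u) = Y.ρ from funext h.ρ,
    show (fun g => (X.α g).map u) = Y.α from funext h.α,
    show (fun g => (X.β g).map u) = Y.β from funext (homβ h)]

/-- the pairs of invertible matrices which come from the source -/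
def Pr {W : Type} [CommRing W] [Finite B] [Finite B'] (ψ : W →+* B) (ψ' : W →+* B') :
    Subgroup ((M2 B)ˣ × (M2 B')ˣ) :=
  let H : Submonoid ((M2 B)ˣ × (M2 B')ˣ) :=
    { carrier := {x | ∃ M : M2 W, M.map ψ = x.1 ∧ M.map ψ' = x.2}
      one_mem' := ⟨1, map_one' _, map_one' _⟩
      mul_mem' := fun ⟨M, h, h'⟩ ⟨N, k, k'⟩ => ⟨M * N, by rw [Matrix.map_mul, h, k]; rfl,
        by rw [Matrix.map_mul, h', k']; rfl⟩ }
  { H with
    inv_mem' := fun {x} hx => by
      have : x⁻¹ = x ^ (orderOf x - 1) := by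
        rw [inv_eq_iff_mul_eq_one, ← pow_succ', Nat.sub_add_cancel (orderOf_pos x),
          pow_orderOf_eq_one]
      rw [this]
      exact H.pow_mem hx _ }

/-- every pair of objects has a common canonical source -/
theorem can [IsLocalRing O] [CharP F 2] (hk : ∀ c, S.red c = 0 ↔ c ∈ maximalIdeal O) {𝒞 : Cl S}
    (hC : Closed 𝒞) {Q : Finset ℕ} {τ' : Fin r → GQ} (hg : Gen S Q (Sum.elim G.γ τ'))
    {Y : Obj S B} {Y' : Obj S B'} (hY : Ty 𝒞 Q B Y) (hY' : Ty 𝒞 Q B' Y')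
    {ψ : PS O (V0 τ L ι S.T r) →+* B} {ψ' : PS O (V0 τ L ι S.T r) →+* B'}
    (h : Hm Y.ι (v0 K G r Y.ι Y.ρ Y.α Y.β τ') ψ) (h' : Hm Y'.ι (v0 K G r Y'.ι Y'.ρ Y'.α Y'.β τ') ψ')
    (I : Ideal (PS O (V0 τ L ι S.T r))) (hI : ∀ w, w ∈ I ↔ ψ w = 0 ∧ ψ' w = 0) :
    ∃ Z : Obj S (PS O (V0 τ L ι S.T r) ⧸ I), Ty 𝒞 Q _ Z ∧
      Hm Z.ι (v0 K G r Z.ι Z.ρ Z.α Z.β τ') (Ideal.Quotient.mk I) := by
  haveI := Y.fin
  haveI := Y'.fin
  let u := Ideal.Quotient.lift I ψ fun w hw => ((hI w).1 hw).1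
  let u' := Ideal.Quotient.lift I ψ' fun w hw => ((hI w).1 hw).2
  have inj : ∀ a, u a = 0 → u' a = 0 → a = 0 := fun a => by
    obtain ⟨w, rfl⟩ := Ideal.Quotient.mk_surjective a
    exact fun e e' => Ideal.Quotient.eq_zero_iff_mem.2 ((hI w).2 ⟨e, e'⟩)
  have h1 : ∀ g, (Y.ρ.toHomUnits.prod Y'.ρ.toHomUnits) g ∈ Pr ψ ψ' := fun g => by
    refine (Subgroup.closure_le _).2 ?_ (hg _ (Y.ρ.toHomUnits.prod Y'.ρ.toHomUnits) ?_ ?_ ?_ g)
    · rintro _ ⟨i, rfl⟩
      exact ⟨ZS K G r i, hm_ZS K G r h i, hm_ZS K G r h' i⟩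
    · have e : {g : GQ | (Y.ρ.toHomUnits.prod Y'.ρ.toHomUnits) g = 1} =
          {g | Y.ρ g = 1} ∩ {g | Y'.ρ g = 1} := Set.ext fun g =>
        Prod.ext_iff.trans (and_congr Units.ext_iff Units.ext_iff)
      exact e ▸ Y.opn.inter Y'.opn
    · intro g e
      obtain ⟨n, hn⟩ := two_obj Y e
      obtain ⟨n', hn'⟩ := two_obj Y' e
      exact ⟨n + n', Prod.ext (Units.ext ((Units.val_pow_eq_pow_val _ _).trans (hn _ (by omega))))
        (Units.ext ((Units.val_pow_eq_pow_val _ _).trans (hn' _ (by omega))))⟩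
    · intro l a b c P d e s f
      exact Prod.ext (Units.ext (hY.2 l a b c P d e s f)) (Units.ext (hY'.2 l a b c P d e s f))
  have h2 : ∀ l, ((⟨Y.α l, Y.β l, Y.inv l, inv' Y l⟩, ⟨Y'.α l, Y'.β l, Y'.inv l, inv' Y' l⟩) :
      (M2 B)ˣ × (M2 B')ˣ) ∈ Pr ψ ψ' := fun l => by
    by_cases hl : l ∈ S.T
    · exact ⟨αS τ L ι S.T r l, hm_αS K G r h hl, hm_αS K G r h' hl⟩
    · exact ⟨1, (map_one' _).trans (Y.off l hl).symm, (map_one' _).trans (Y'.off l hl).symm⟩
  choose m hm hm' using h1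
  choose b hb hb' using fun l => (Pr ψ ψ').inv_mem (h2 l)
  choose a ha ha' using h2
  obtain ⟨Z, z0, z1, z2⟩ := pull Y Y' u u' inj
    (fun a => by
      obtain ⟨w, rfl⟩ := Ideal.Quotient.mk_surjective a
      exact (res_eq hk (Y.π.comp ψ) (fun c => (congrArg Y.π (h.c c)).trans (Y.alg c)) w).trans
        (res_eq hk (Y'.π.comp ψ') (fun c => (congrArg Y'.π (h'.c c)).trans (Y'.alg c)) w).symm)
    ((Ideal.Quotient.mk I).comp C) (fun g => (m g).map (Ideal.Quotient.mk I))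
    (fun g => (a g).map (Ideal.Quotient.mk I)) (fun g => (b g).map (Ideal.Quotient.mk I))
    h.c h'.c hm hm' ha ha' hb hb'
  refine ⟨Z, (closed_ty hC Q).pull _ _ _ Z Y Y' u u' z1 z2 inj hY hY', fun o => by rw [z0]; rfl,
    fun s => sub_eq_zero.1 (inj _ ?_ ?_)⟩
  · rw [map_sub, v0_hom K G r z1, sub_eq_zero]
    exact h.x s
  · rw [map_sub, v0_hom K G r z2, sub_eq_zero]
    exact h'.x s

/-- **the universal property**, for a ring with residue field `F` -/
theorem univ [IsLocalRing O] [IsNoetherianRing O] [IsAdicComplete (maximalIdeal O) O] [Finite F]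
    [CharP F 2] [Fintype β] [∀ b, Fintype (τ b)] [Fintype ι]
    (hk : ∀ c, S.red c = 0 ↔ c ∈ maximalIdeal O) (hC : Closed (ClG L S)) {q : Fin r → ℕ}
    {τ' : Fin r → GQ} (hg : Gen S (Finset.univ.image q) (Sum.elim G.γ τ')) [Finite B]
    (π : B →+* F) (loc : ∀ b, π b ≠ 0 → IsUnit b) (ψ : PS O (V0 τ L ι S.T r) →+* B)
    (hπ : ∀ c, π (ψ (C c)) = S.red c) (hψ : Kn K G r q τ' ≤ RingHom.ker ψ) :
    ∃ X : Obj S B, Ty (ClG L S) (Finset.univ.image q) B X ∧ X.π = π ∧
      Hm X.ι (v0 K G r X.ι X.ρ X.α X.β τ') ψ := by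
  classical
  let W := PS O (V0 τ L ι S.T r)
  let π0 : W →+* F := S.red.comp constantCoeff
  have km : RingHom.ker π0 = maximalIdeal W := Ideal.ext fun f =>
    (hk _).trans (P022D.L2b.mem_max_iff f).symm
  have op : ∀ (A : Type) [CommRing A] [Finite A] (p : A →+* F) (φ : W →+* A),
      (∀ b, p b ≠ 0 → IsUnit b) → (∀ c, p (φ (C c)) = S.red c) →
      ∃ k, maximalIdeal W ^ k ≤ RingHom.ker φ := fun A _ _ p φ h1 h2 => by
    obtain ⟨n, hn⟩ := ker_nil p h1
    have : maximalIdeal W ≤ (RingHom.ker p).comap φ := fun f hf => by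
      rw [← km] at hf
      exact (res_eq hk (p.comp φ) h2 f).trans hf
    refine ⟨n, (Ideal.pow_right_mono this n).trans ((Ideal.le_comap_pow _ n).trans ?_)⟩
    rw [hn]
    exact le_rfl
  let 𝓘 : Set (Ideal W) := {I | ∃ (A : Type) (_ : CommRing A) (X : Obj S A) (φ : W →+* A),
    Ty (ClG L S) (Finset.univ.image q) A X ∧ Hm X.ι (v0 K G r X.ι X.ρ X.α X.β τ') φ ∧
      RingHom.ker φ = I}
  have hK : sInf 𝓘 ≤ Kn K G r q τ' := fun f hf A _ j v φ ⟨X, a, b, c⟩ d => by
    subst b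
    subst c
    exact Submodule.mem_sInf.1 hf _ ⟨A, _, X, φ, a, d, rfl⟩
  have hne : 𝓘.Nonempty := by
    by_contra hn
    rw [Set.not_nonempty_iff_eq_empty] at hn
    have : ψ (C 1) = 0 := hψ (hK (by rw [hn, sInf_empty]; trivial))
    have e := hπ 1
    rw [this, map_zero, map_one] at e
    exact zero_ne_one e
  have cn : ∀ I ∈ 𝓘, ∀ I' ∈ 𝓘, ∃ Z : Obj S (W ⧸ (I ⊓ I')),
      Ty (ClG L S) (Finset.univ.image q) _ Z ∧
      Hm Z.ι (v0 K G r Z.ι Z.ρ Z.α Z.β τ') (Ideal.Quotient.mk (I ⊓ I')) := by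
    rintro _ ⟨A, _, X, φ, a, b, rfl⟩ _ ⟨A', _, X', φ', a', b', rfl⟩
    exact can K G r hk hC hg a a' b b' _ fun w => Iff.rfl
  have := P022D.L2b.isAdicCompleteV (σ := V0 τ L ι S.T r) (V := O) inferInstance
  obtain ⟨N, hN⟩ := op B π ψ loc hπ
  obtain ⟨I, h1, h2⟩ := P022D.L2b.chevalley (maximalIdeal W) (fun k => by
      have : Finite (W ⧸ maximalIdeal W) := km ▸ Finite.of_injective _ π0.kerLift_injective
      exact Ideal.finite_quotient_pow (IsNoetherian.noetherian _) k) 𝓘 hne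
    (fun I h I' h' => by
      obtain ⟨Z, a, b⟩ := cn I h I' h'
      exact ⟨_, ⟨_, _, Z, _, a, b, Ideal.mk_ker⟩, inf_le_left, inf_le_right⟩)
    (by
      rintro _ ⟨A, _, X, φ, a, b, rfl⟩
      haveI := X.fin
      exact op A X.π φ X.loc fun c => (congrArg X.π (b.c c)).trans (X.alg c)) N
  have h3 : I ⊓ I ≤ RingHom.ker ψ := inf_le_left.trans (h2.trans (sup_le (hK.trans hψ) hN))
  obtain ⟨Z, a, b⟩ := cn I h1 I h1
  let u := Ideal.Quotient.lift (I ⊓ I) ψ fun w hw => h3 hw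
  have hp : ∀ x, π (u x) = Z.π x := fun x => by
    obtain ⟨w, rfl⟩ := Ideal.Quotient.mk_surjective x
    exact (res_eq hk (π.comp ψ) hπ w).trans (res_eq hk (Z.π.comp (Ideal.Quotient.mk _))
      (fun c => (congrArg Z.π (b.c c)).trans (Z.alg c)) w).symm
  have hh := hom_map Z u π inferInstance loc hp
  refine ⟨omap Z u π inferInstance loc hp, (closed_ty hC _).push _ _ Z _ u hh a, rfl,
    fun o => congrArg u (b.c o), fun s => ?_⟩
  rw [← v0_hom K G r hh, ← b.x]
  rfl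

/-- **the universal property**, for any finite ring: the object lives over the image -/
theorem univB [IsLocalRing O] [IsNoetherianRing O] [IsAdicComplete (maximalIdeal O) O] [Finite F]
    [CharP F 2] [Fintype β] [∀ b, Fintype (τ b)] [Fintype ι]
    (hk : ∀ c, S.red c = 0 ↔ c ∈ maximalIdeal O) (hC : Closed (ClG L S)) {q : Fin r → ℕ}
    {τ' : Fin r → GQ} (hg : Gen S (Finset.univ.image q) (Sum.elim G.γ τ')) [Finite B]
    [Nontrivial B] (ψ : PS O (V0 τ L ι S.T r) →+* B) (hψ : Kn K G r q τ' ≤ RingHom.ker ψ) :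
    ∃ X : Obj S (PS O (V0 τ L ι S.T r) ⧸ RingHom.ker ψ),
      Ty (ClG L S) (Finset.univ.image q) _ X ∧
      Hm X.ι (v0 K G r X.ι X.ρ X.α X.β τ') (Ideal.Quotient.mk _) ∧
      Hm (ψ.kerLift.comp X.ι) (v0 K G r (ψ.kerLift.comp X.ι) (fun g => (X.ρ g).map ψ.kerLift)
        (fun l => (X.α l).map ψ.kerLift) (fun l => (X.β l).map ψ.kerLift) τ') ψ := by
  haveI : Finite (PS O (V0 τ L ι S.T r) ⧸ RingHom.ker ψ) :=
    Finite.of_injective _ ψ.kerLift_injective
  have hm := le_maximalIdeal (RingHom.ker_ne_top ψ)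
  have k0 : ∀ f : PS O (V0 τ L ι S.T r), S.red (constantCoeff f) = 0 ↔ f ∈ maximalIdeal _ :=
    fun f => (hk _).trans (P022D.L2b.mem_max_iff f).symm
  obtain ⟨X, a, -, b⟩ := univ K G r hk hC hg
    (Ideal.Quotient.lift (RingHom.ker ψ) (S.red.comp constantCoeff) fun f hf => (k0 f).2 (hm hf))
    (fun x hx => by
      obtain ⟨w, rfl⟩ := Ideal.Quotient.mk_surjective x
      exact (notMem_maximalIdeal.1 fun e => hx ((k0 w).2 e)).map _)
    (Ideal.Quotient.mk _) (fun c => congrArg S.red (constantCoeff_C c))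
    (hψ.trans Ideal.mk_ker.ge)
  refine ⟨X, a, b, fun o => ?_, fun s => ?_⟩
  · rw [RingHom.comp_apply, ← b.c, RingHom.kerLift_mk]
  · rw [← v0_map, ← b.x, RingHom.kerLift_mk]

end Vale.Agent.P022G.Tw.H44
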